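import Vale.Agent.P245.N.Eff
import Vale.Agent.P245.N.Fin

open MeasureTheory
open scoped ContDiff

namespace Vale.Agent.Results.P245.AllScales

open Vale.Agent.P245

/-- Logarithmic Sobolev inequalities for linearly `a`-subgaussian log-concave probability measures
on `ℝ^n`, at all entropy scales, in terms of the dimension `n` (part 1), of the effective
dimension `W = log E exp(|X|²/(2a²))`, which is at most `2n` (parts 2 and 4), and of the radius of
the support (part 3), with one absolute constant `C`. -/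
theorem result :
    ∃ C : ℝ, 0 < C ∧ ∀ (n : ℕ), 1 ≤ n → ∀ (μ : Measure (EuclideanSpace ℝ (Fin n)))
      [IsProbabilityMeasure μ], HasLogConcaveDensity μ → ∀ a : ℝ, 0 < a →
      LinearlySubgaussian μ a →
      -- (1) in terms of the dimension
      (∀ f : EuclideanSpace ℝ (Fin n) → ℝ, ContDiff ℝ ∞ f → HasCompactSupport f →
        (∀ k : ℝ, 1 ≤ k → Entropy μ (fun x => f x ^ 2) ≤
          C * k * a ^ 2 * ∫ x, ‖gradient f x‖ ^ 2 ∂μ + n * Real.exp (-k) * ∫ x, f x ^ 2 ∂μ) ∧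
        (∀ ε : ℝ, 0 < ε → ε ≤ 1 → ε * n * ∫ x, f x ^ 2 ∂μ ≤ Entropy μ (fun x => f x ^ 2) →
          Entropy μ (fun x => f x ^ 2) ≤
            C * (1 + Real.log (1 / ε)) * a ^ 2 * ∫ x, ‖gradient f x‖ ^ 2 ∂μ) ∧
        Entropy μ (fun x => f x ^ 2) ≤
          C * (1 + Real.log n) * a ^ 2 * ∫ x, ‖gradient f x‖ ^ 2 ∂μ) ∧
      -- (2) in terms of the effective dimension
      (∀ W : ℝ, 1 ≤ W →
        ∫⁻ x, ENNReal.ofReal (Real.exp (‖x‖ ^ 2 / (2 * a ^ 2))) ∂μ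
          ≤ ENNReal.ofReal (Real.exp W) →
        ∀ f : EuclideanSpace ℝ (Fin n) → ℝ, ContDiff ℝ ∞ f → HasCompactSupport f →
          (∀ k : ℝ, 1 ≤ k → Entropy μ (fun x => f x ^ 2) ≤
            C * k * a ^ 2 * ∫ x, ‖gradient f x‖ ^ 2 ∂μ
              + W * Real.exp (-k) * ∫ x, f x ^ 2 ∂μ) ∧
          (∀ ε : ℝ, 0 < ε → ε ≤ 1 → ε * W * ∫ x, f x ^ 2 ∂μ ≤ Entropy μ (fun x => f x ^ 2) →
            Entropy μ (fun x => f x ^ 2) ≤
              C * (1 + Real.log (1 / ε)) * a ^ 2 * ∫ x, ‖gradient f x‖ ^ 2 ∂μ) ∧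
          Entropy μ (fun x => f x ^ 2) ≤
            C * (1 + Real.log W) * a ^ 2 * ∫ x, ‖gradient f x‖ ^ 2 ∂μ) ∧
      -- (3) bounded support
      (∀ R : ℝ, 1 ≤ R → (∀ᵐ x ∂μ, ‖x‖ ≤ R * a) →
        ∀ f : EuclideanSpace ℝ (Fin n) → ℝ, ContDiff ℝ ∞ f → HasCompactSupport f →
          Entropy μ (fun x => f x ^ 2) ≤
            C * (1 + Real.log R) * a ^ 2 * ∫ x, ‖gradient f x‖ ^ 2 ∂μ) ∧
      -- (4) the effective dimension is at most `2n`
      ∫⁻ x, ENNReal.ofReal (Real.exp (‖x‖ ^ 2 / (2 * a ^ 2))) ∂μ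
        ≤ ENNReal.ofReal (Real.exp (2 * n)) := by
  obtain ⟨C₁, hC₁, h₁⟩ := N.allEntropies
  obtain ⟨C₂, hC₂, h₂⟩ := N.effectiveDimension_all
  have hm1 : C₁ ≤ 4 * max C₁ C₂ := by
    have := le_max_left C₁ C₂
    linarith only [this, hC₁, le_trans hC₁.le this]
  have hm2 : C₂ ≤ 4 * max C₁ C₂ := by
    have := le_max_right C₁ C₂
    linarith only [this, hC₂, le_trans hC₂.le this]
  have hm3 : 4 * C₂ ≤ 4 * max C₁ C₂ := by
    have := le_max_right C₁ C₂
    linarith only [this]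
  refine ⟨4 * max C₁ C₂, by positivity, fun n hn μ _ hμ a ha hsub => ?_⟩
  have hn1 : (1 : ℝ) ≤ n := by exact_mod_cast hn
  obtain ⟨h₂a, h₂b, h₂c⟩ := h₂ n hn μ hμ a ha hsub
  have hG : ∀ f : EuclideanSpace ℝ (Fin n) → ℝ, 0 ≤ ∫ x, ‖gradient f x‖ ^ 2 ∂μ :=
    fun f => integral_nonneg fun x => by positivity
  -- enlarging the constant
  have hup : ∀ (c d G : ℝ), 0 ≤ d → 0 ≤ G → c ≤ 4 * max C₁ C₂ →
      c * d * a ^ 2 * G ≤ 4 * max C₁ C₂ * d * a ^ 2 * G := by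
    intro c d G hd hG hc
    gcongr
  refine ⟨fun f hf hfc => ?_, fun W hW hexp f hf hfc => ?_, fun R hR hs f hf hfc => ?_, h₂c⟩
  · obtain ⟨g1, g2, g3⟩ := h₁ n hn μ hμ a ha hsub f hf hfc
    refine ⟨fun k hk => ?_, fun ε hε hε1 hE => ?_, ?_⟩
    · have := hup C₁ k _ (by linarith only [hk]) (hG f) hm1
      linarith only [g1 k hk, this]
    · have hl : 0 ≤ Real.log (1 / ε) := Real.log_nonneg (by rw [le_div_iff₀ hε]; linarith only [hε1])
      exact (g2 ε hε hε1 hE).trans (hup C₁ _ _ (by linarith only [hl]) (hG f) hm1)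
    · have hl : 0 ≤ Real.log (n : ℝ) := Real.log_nonneg hn1
      exact g3.trans (hup C₁ _ _ (by linarith only [hl]) (hG f) hm1)
  · obtain ⟨g1, g3⟩ := h₂a W hW hexp f hf hfc
    refine ⟨fun k hk => ?_, fun ε hε hε1 hE => ?_, ?_⟩
    · have := hup C₂ k _ (by linarith only [hk]) (hG f) hm2
      linarith only [g1 k hk, this]
    · have hl : 0 ≤ Real.log (1 / ε) := Real.log_nonneg (by rw [le_div_iff₀ hε]; linarith only [hε1])
      obtain ⟨E, hEd⟩ : ∃ E : ℝ, E = Entropy μ (fun x => f x ^ 2) := ⟨_, rfl⟩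
      obtain ⟨G, hGd⟩ : ∃ G : ℝ, G = ∫ x, ‖gradient f x‖ ^ 2 ∂μ := ⟨_, rfl⟩
      obtain ⟨F, hFd⟩ : ∃ F : ℝ, F = ∫ x, f x ^ 2 ∂μ := ⟨_, rfl⟩
      have hF0 : 0 ≤ F := by rw [hFd]; exact integral_nonneg fun x => by positivity
      have hG0 : 0 ≤ G := by rw [hGd]; exact hG f
      have hlog2 : 0 < Real.log 2 := Real.log_pos (by norm_num)
      have hlog2' : Real.log 2 ≤ 1 := by
        have := Real.log_two_lt_d9
        linarith only [this]
      obtain ⟨k, hkd⟩ : ∃ k : ℝ, k = 1 + Real.log (1 / ε) + Real.log 2 := ⟨_, rfl⟩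
      have hk1 : 1 ≤ k := by rw [hkd]; linarith only [hl, hlog2]
      have hk := g1 k hk1
      rw [← hEd, ← hGd, ← hFd] at hk
      rw [← hEd, ← hFd] at hE
      rw [← hEd, ← hGd]
      have hek : Real.exp (-k) ≤ ε / 2 := by
        have e1 : -k = -1 + Real.log ε - Real.log 2 := by
          rw [hkd, one_div, Real.log_inv]; ring
        rw [e1, Real.exp_sub, Real.exp_add, Real.exp_log hε, Real.exp_log (by norm_num)]
        have e2 : Real.exp (-1) ≤ 1 := Real.exp_le_one_iff.2 (by norm_num)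
        have e3 : Real.exp (-1) * ε ≤ 1 * ε := by gcongr
        linarith only [e3]
      have hW0 : 0 ≤ W := by linarith only [hW]
      have h3 : W * Real.exp (-k) * F ≤ W * (ε / 2) * F := by gcongr
      have h4 : W * (ε / 2) * F = ε * W * F / 2 := by ring
      have h5 : E ≤ 2 * (C₂ * k * a ^ 2 * G) := by linarith only [hk, h3, h4, hE]
      have hk2 : k ≤ 2 * (1 + Real.log (1 / ε)) := by rw [hkd]; linarith only [hl, hlog2']
      have h6 : C₂ * k * a ^ 2 * G ≤ C₂ * (2 * (1 + Real.log (1 / ε))) * a ^ 2 * G := by gcongr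
      have h7 : 2 * (C₂ * (2 * (1 + Real.log (1 / ε))) * a ^ 2 * G) =
          4 * C₂ * (1 + Real.log (1 / ε)) * a ^ 2 * G := by ring
      have h8 := hup (4 * C₂) (1 + Real.log (1 / ε)) G (by linarith only [hl]) hG0 hm3
      linarith only [h5, h6, h7, h8]
    · have hl : 0 ≤ Real.log W := Real.log_nonneg hW
      exact g3.trans (hup C₂ _ _ (by linarith only [hl]) (hG f) hm2)
  · have hl : 0 ≤ Real.log R := Real.log_nonneg hR
    exact (h₂b R hR hs f hf hfc).trans (hup C₂ _ _ (by linarith only [hl]) (hG f) hm2)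

end Vale.Agent.Results.P245.AllScales
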