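import Vale.Agent.P245.N.Eff

open MeasureTheory
open scoped ContDiff

namespace Vale.Agent.Results.P245.EffectiveDimension

open Vale.Agent.P245

/-- Dimension-free logarithmic Sobolev inequalities for linearly `a`-subgaussian log-concave
probability measures: the dimension `n` in the bound `C (1 + log n) a²` is replaced by the
effective dimension `W = log E exp(|X|²/(2a²))`, which is always at most `2n`, and by the radius
`R` for measures supported in the ball of radius `R a`. -/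
theorem result :
    ∃ C : ℝ, 0 < C ∧ ∀ (n : ℕ), 1 ≤ n → ∀ (μ : Measure (EuclideanSpace ℝ (Fin n)))
      [IsProbabilityMeasure μ], HasLogConcaveDensity μ → ∀ a : ℝ, 0 < a →
      LinearlySubgaussian μ a →
      (∀ W : ℝ, 1 ≤ W →
        ∫⁻ x, ENNReal.ofReal (Real.exp (‖x‖ ^ 2 / (2 * a ^ 2))) ∂μ
          ≤ ENNReal.ofReal (Real.exp W) →
        ∀ f : EuclideanSpace ℝ (Fin n) → ℝ, ContDiff ℝ ∞ f → HasCompactSupport f →
          (∀ k : ℝ, 1 ≤ k → Entropy μ (fun x => f x ^ 2) ≤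
            C * k * a ^ 2 * ∫ x, ‖gradient f x‖ ^ 2 ∂μ
              + W * Real.exp (-k) * ∫ x, f x ^ 2 ∂μ) ∧
          Entropy μ (fun x => f x ^ 2) ≤
            C * (1 + Real.log W) * a ^ 2 * ∫ x, ‖gradient f x‖ ^ 2 ∂μ) ∧
      (∀ R : ℝ, 1 ≤ R → (∀ᵐ x ∂μ, ‖x‖ ≤ R * a) →
        ∀ f : EuclideanSpace ℝ (Fin n) → ℝ, ContDiff ℝ ∞ f → HasCompactSupport f →
          Entropy μ (fun x => f x ^ 2) ≤
            C * (1 + Real.log R) * a ^ 2 * ∫ x, ‖gradient f x‖ ^ 2 ∂μ) ∧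
      ∫⁻ x, ENNReal.ofReal (Real.exp (‖x‖ ^ 2 / (2 * a ^ 2))) ∂μ
        ≤ ENNReal.ofReal (Real.exp (2 * n)) :=
  N.effectiveDimension_all

end Vale.Agent.Results.P245.EffectiveDimension
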