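import Vale.Agent.P245.N.Fin

open MeasureTheory
open scoped ContDiff

namespace Vale.Agent.Results.P245.EntropyScale

open Vale.Agent.P245

/-- Logarithmic Sobolev inequalities at all entropy scales for linearly `a`-subgaussian
log-concave probability measures on `ℝ^n`, with an absolute constant `C`:

* `Ent(f²) ≤ C k a² ∫|Df|² + n e^{-k} ∫ f²` for every `k ≥ 1`;
* `Ent(f²) ≤ C (1 + log(1/ε)) a² ∫|Df|²` as soon as `Ent(f²) ≥ ε n ∫ f²`, `0 < ε ≤ 1`;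
* `Ent(f²) ≤ C (1 + log n) a² ∫|Df|²` for every `f`. -/
theorem result :
    ∃ C : ℝ, 0 < C ∧ ∀ (n : ℕ), 1 ≤ n → ∀ (μ : Measure (EuclideanSpace ℝ (Fin n)))
      [IsProbabilityMeasure μ], HasLogConcaveDensity μ → ∀ a : ℝ, 0 < a →
      LinearlySubgaussian μ a → ∀ f : EuclideanSpace ℝ (Fin n) → ℝ, ContDiff ℝ ∞ f →
      HasCompactSupport f →
      (∀ k : ℝ, 1 ≤ k → Entropy μ (fun x => f x ^ 2) ≤
        C * k * a ^ 2 * ∫ x, ‖gradient f x‖ ^ 2 ∂μ + n * Real.exp (-k) * ∫ x, f x ^ 2 ∂μ) ∧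
      (∀ ε : ℝ, 0 < ε → ε ≤ 1 → ε * n * ∫ x, f x ^ 2 ∂μ ≤ Entropy μ (fun x => f x ^ 2) →
        Entropy μ (fun x => f x ^ 2) ≤
          C * (1 + Real.log (1 / ε)) * a ^ 2 * ∫ x, ‖gradient f x‖ ^ 2 ∂μ) ∧
      Entropy μ (fun x => f x ^ 2) ≤
        C * (1 + Real.log n) * a ^ 2 * ∫ x, ‖gradient f x‖ ^ 2 ∂μ :=
  N.allEntropies

end Vale.Agent.Results.P245.EntropyScale
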